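import Vale.Agent.P354KP.Loc
import Vale.Agent.P354K.L2

/-!
The weighted Poincare inequality.
-/

open scoped ContDiff
open MeasureTheory Set Filter Topology

namespace Vale.Agent.P354KP

open Vale.Agent.P354H (X3 e pd pdl Sb pd_sm dif haar)
open Vale.Agent.P354K

variable (z0 : X3) (r : ℝ)

/-- Scaled coordinates and the functions of one variable from which the weight is built. -/
noncomputable def sc (i : Fin 3) (z : X3) : ℝ := r⁻¹ * (co i z - co i z0)
noncomputable def qq (i : Fin 3) (z : X3) : ℝ := √(1 + sc z0 r i z ^ 2)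
noncomputable def uu (i : Fin 3) (z : X3) : ℝ := (qq z0 r i z)⁻¹
noncomputable def vv (i : Fin 3) (z : X3) : ℝ := sc z0 r i z * uu z0 r i z
noncomputable def kk (i j : Fin 3) : ℝ := if i = j then r⁻¹ else 0
noncomputable def psi (z : X3) : ℝ := Real.exp (-4 * ∑ i, qq z0 r i z)

theorem sc_sm (i : Fin 3) : Sm (sc z0 r i) := contDiff_const.mul ((co_sm i).sub contDiff_const)

theorem one_le_qq (i : Fin 3) (z : X3) : 1 ≤ qq z0 r i z :=
  Real.one_le_sqrt.2 (by nlinarith [sq_nonneg (sc z0 r i z)])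

theorem qq_pos (i : Fin 3) (z : X3) : 0 < qq z0 r i z := one_pos.trans_le (one_le_qq z0 r i z)

theorem qq_sq (i : Fin 3) (z : X3) : qq z0 r i z ^ 2 = 1 + sc z0 r i z ^ 2 :=
  Real.sq_sqrt (by positivity)

theorem abs_sc_le (i : Fin 3) (z : X3) : |sc z0 r i z| ≤ qq z0 r i z :=
  Real.abs_le_sqrt (by linarith)

theorem qq_sm (i : Fin 3) : Sm (qq z0 r i) :=
  (contDiff_const.add ((sc_sm z0 r i).pow 2)).sqrt fun _ => by positivity

theorem uu_sm (i : Fin 3) : Sm (uu z0 r i) := (qq_sm z0 r i).inv fun z => (qq_pos z0 r i z).ne'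

theorem vv_sm (i : Fin 3) : Sm (vv z0 r i) := (sc_sm z0 r i).mul (uu_sm z0 r i)

theorem psi_sm : Sm (psi z0 r) :=
  (contDiff_const.mul (ContDiff.sum fun i _ => qq_sm z0 r i)).exp

theorem uu_pos (i : Fin 3) (z : X3) : 0 < uu z0 r i z := inv_pos.2 (qq_pos z0 r i z)

theorem uu_le (i : Fin 3) (z : X3) : uu z0 r i z ≤ 1 := inv_le_one_of_one_le₀ (one_le_qq z0 r i z)

theorem abs_vv_le (i : Fin 3) (z : X3) : |vv z0 r i z| ≤ 1 := by
  rw [vv, abs_mul, abs_of_pos (uu_pos z0 r i z), uu, ← div_eq_mul_inv,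
    div_le_one (qq_pos z0 r i z)]
  exact abs_sc_le z0 r i z

theorem pd_sc (j i : Fin 3) : pd j (sc z0 r i) = fun _ => kk r i j := by
  unfold sc
  rw [pd_cmul j _ ((co_sm i).sub contDiff_const), pd_sub' j (co_sm i) contDiff_const, pd_co,
    pd_const]
  funext z
  simp [kk]

theorem pd_qq (j i : Fin 3) : pd j (qq z0 r i) = fun z => vv z0 r i z * kk r i j := by
  have h : ∀ x : ℝ, HasDerivAt (fun x : ℝ => √(1 + x ^ 2)) (x * (√(1 + x ^ 2))⁻¹) x := fun x => by
    have h1 := ((hasDerivAt_pow 2 x).const_add 1).sqrt (by positivity)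
    refine h1.congr_deriv ?_
    have : √(1 + x ^ 2) ≠ 0 := by positivity
    field_simp
    norm_num
  have := pd_comp j h (sc_sm z0 r i)
  rw [pd_sc] at this
  exact this

theorem pd_uu (j i : Fin 3) : pd j (uu z0 r i) =
    fun z => -kk r i j * (vv z0 r i z * (uu z0 r i z * uu z0 r i z)) := by
  have := pd_inv j (qq_sm z0 r i) fun z => (qq_pos z0 r i z).ne'
  rw [pd_qq] at this
  refine this.trans (funext fun z => ?_)
  simp only [uu]
  ring

theorem pd_vv (j i : Fin 3) : pd j (vv z0 r i) = fun z =>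
    kk r i j * uu z0 r i z + -kk r i j * (vv z0 r i z * (vv z0 r i z * uu z0 r i z)) := by
  have := pd_mul j (sc_sm z0 r i) (uu_sm z0 r i)
  rw [pd_sc, pd_uu] at this
  refine this.trans (funext fun z => ?_)
  simp only [vv]
  ring

theorem ug_uv (i : Fin 3) (k : ℕ) : UG (fun _ _ => 1) k (fun _ : Unit => uu z0 r i) ∧
    UG (fun _ _ => 1) k (fun _ : Unit => vv z0 r i) := by
  have bu : ∃ C, ∀ (_ : Unit) z, |uu z0 r i z| ≤ C :=
    ⟨1, fun _ z => by rw [abs_of_pos (uu_pos z0 r i z)]; exact uu_le z0 r i z⟩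
  have bv : ∃ C, ∀ (_ : Unit) z, |vv z0 r i z| ≤ C := ⟨1, fun _ z => abs_vv_le z0 r i z⟩
  have c : ∀ (k : ℕ) (a : ℝ), UG (fun _ _ => 1) k fun (_ : Unit) _ => a := fun k a =>
    ug_const k ⟨|a|, fun _ => le_rfl⟩
  have g1 : ∀ j (f : X3 → ℝ), Gd1 (fun _ _ => 1) j f = pd j f := fun j f => by
    funext z
    simp [Gd1]
  induction k with
  | zero => exact ⟨ug_zero (fun _ => uu_sm z0 r i) bu, ug_zero (fun _ => vv_sm z0 r i) bv⟩
  | succ k ih =>
    refine ⟨ug_succ (fun _ => uu_sm z0 r i) bu fun j => ?_,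
      ug_succ (fun _ => vv_sm z0 r i) bv fun j => ?_⟩
    · simp only [g1, pd_uu]
      exact UG.mul one_sm (c k _) (UG.mul one_sm ih.2 (UG.mul one_sm ih.1 ih.1))
    · simp only [g1, pd_vv]
      exact UG.add one_sm (UG.mul one_sm (c k _) ih.1)
        (UG.mul one_sm (c k _) (UG.mul one_sm ih.2 (UG.mul one_sm ih.2 ih.1)))

theorem pd_psi (j : Fin 3) :
    pd j (psi z0 r) = fun z => -4 * r⁻¹ * vv z0 r j z * psi z0 r z := by
  have hs : Sm fun z => ∑ i, qq z0 r i z := ContDiff.sum fun i _ => qq_sm z0 r i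
  have := pd_comp j Real.hasDerivAt_exp (contDiff_const.mul hs : Sm fun z => -4 * ∑ i, qq z0 r i z)
  rw [pd_cmul j _ hs, pd_sum j _ (qq_sm z0 r)] at this
  refine this.trans (funext fun z => ?_)
  simp only [pd_qq, kk, mul_ite, mul_zero, Finset.sum_ite_eq', Finset.mem_univ, if_true, psi]
  ring

theorem psi_pos (z : X3) : 0 < psi z0 r z := Real.exp_pos _

theorem psi_le (z : X3) : psi z0 r z ≤ 1 := by
  have : 0 ≤ ∑ i, qq z0 r i z := Finset.sum_nonneg fun i _ => (qq_pos z0 r i z).le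
  exact Real.exp_le_one_iff.2 (by linarith)

theorem norm_le_co (z : X3) : ‖z‖ ≤ ∑ i, |co i z| := by
  obtain ⟨a, b, c⟩ := z
  simp only [Fin.sum_univ_three, co, Prod.norm_def, Real.norm_eq_abs, Matrix.cons_val_zero,
    Matrix.cons_val_one, Matrix.cons_val]
  have := abs_nonneg a
  have := abs_nonneg b
  have := abs_nonneg c
  exact max_le (by linarith) (max_le (by linarith) (by linarith))

variable {r}

theorem co_eq (hr : 0 < r) (i : Fin 3) (z : X3) : co i z = co i z0 + r * sc z0 r i z := by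
  unfold sc
  field_simp
  ring

theorem wt_psi (hr : 0 < r) : Wt (psi z0 r) := by
  refine ⟨⟨psi_pos z0 r, psi_sm z0 r, fun i => ⟨fun z => -4 * r⁻¹ * vv z0 r i z, ?_,
    pd_psi z0 r i⟩⟩, fun n => ?_⟩
  · exact (ub_c _).mul (ub_iff.2 fun k => (ug_uv z0 r i k).2)
  · refine ⟨(1 + 3 * ‖z0‖ + r) ^ (2 * n) * ((2 * n).factorial * Real.exp 1), fun z => ?_⟩
    set S := ∑ i, qq z0 r i z with hS
    have S0 : 0 ≤ S := Finset.sum_nonneg fun i _ => (qq_pos z0 r i z).le
    have k : ∀ i, |co i z| ≤ ‖z0‖ + r * qq z0 r i z := fun i => by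
      rw [co_eq z0 hr i z]
      refine (abs_add_le _ _).trans (add_le_add (abs_co_le i z0) ?_)
      rw [abs_mul, abs_of_pos hr]
      exact mul_le_mul_of_nonneg_left (abs_sc_le z0 r i z) hr.le
    have h1 : ‖z‖ ≤ 3 * ‖z0‖ + r * S := by
      have := norm_le_co z
      rw [hS]
      simp only [Fin.sum_univ_three] at this ⊢
      linarith [k 0, k 1, k 2]
    have n0 := norm_nonneg z0
    have h2 : 1 + ‖z‖ ≤ (1 + 3 * ‖z0‖ + r) * (1 + S) := by nlinarith [mul_nonneg n0 S0]
    have h3 : 1 + ‖z‖ ^ 2 ≤ ((1 + 3 * ‖z0‖ + r) * (1 + S)) ^ 2 := by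
      have := pow_le_pow_left₀ (by positivity) h2 2
      nlinarith [norm_nonneg z]
    have h4 : (1 + ‖z‖ ^ 2) ^ n ≤ (1 + 3 * ‖z0‖ + r) ^ (2 * n) * (1 + S) ^ (2 * n) := by
      rw [← mul_pow, pow_mul]
      exact pow_le_pow_left₀ (by positivity) h3 n
    have h5 := Real.pow_div_factorial_le_exp (1 + S) (by positivity) (2 * n)
    rw [div_le_iff₀ (by positivity)] at h5
    have h6 : psi z0 r z * Real.exp (1 + S) ≤ Real.exp 1 := by
      rw [psi, ← Real.exp_add, ← hS]
      exact Real.exp_le_exp.2 (by linarith)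
    calc psi z0 r z * (1 + ‖z‖ ^ 2) ^ n ≤ psi z0 r z * ((1 + 3 * ‖z0‖ + r) ^ (2 * n) *
          (Real.exp (1 + S) * (2 * n).factorial)) :=
          mul_le_mul_of_nonneg_left (h4.trans (mul_le_mul_of_nonneg_left h5 (by positivity)))
            (psi_pos z0 r z).le
      _ = (1 + 3 * ‖z0‖ + r) ^ (2 * n) * ((2 * n).factorial *
          (psi z0 r z * Real.exp (1 + S))) := by ring
      _ ≤ _ := by gcongr

theorem psi_ge (hr : 0 < r) {z : X3} (hz : z ∈ Metric.closedBall z0 r) :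
    Real.exp (-24) ≤ psi z0 r z := by
  have k : ∀ i, qq z0 r i z ≤ 2 := fun i => by
    have h1 : |co i z - co i z0| ≤ r := by
      have := abs_co_le i (z - z0)
      rw [sub_eq_add_neg, co_add, ← neg_one_smul ℝ z0, co_smul, neg_one_smul, ← sub_eq_add_neg,
        ← dist_eq_norm] at this
      rw [sub_eq_add_neg, ← neg_one_mul]
      exact this.trans hz
    rw [co_eq z0 hr i z, add_sub_cancel_left, abs_mul, abs_of_pos hr] at h1
    have h2 : |sc z0 r i z| ≤ 1 := le_of_mul_le_mul_left (by linarith) hr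
    have h3 := (sq_le_one_iff_abs_le_one _).2 h2
    exact Real.sqrt_le_iff.2 ⟨by norm_num, by linarith⟩
  refine Real.exp_le_exp.2 ?_
  rw [Fin.sum_univ_three]
  linarith [k 0, k 1, k 2]

theorem far (hr : 0 < r) {z : X3} (hz : z ∉ Metric.closedBall z0 r) :
    1 / 2 ≤ ∑ i, vv z0 r i z ^ 2 := by
  have h1 : ∃ i, r < |co i z - co i z0| := by
    by_contra c
    push Not at c
    refine hz ?_
    obtain ⟨a, b, d⟩ := z
    obtain ⟨a0, b0, d0⟩ := z0
    exact max_le (c 0) (max_le (c 1) (c 2))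
  obtain ⟨i, hi⟩ := h1
  rw [co_eq z0 hr i z, add_sub_cancel_left, abs_mul, abs_of_pos hr] at hi
  have h2 : 1 < |sc z0 r i z| := lt_of_mul_lt_mul_left (by linarith) hr.le
  have h3 := (one_lt_sq_iff_one_lt_abs _).2 h2
  refine le_trans ?_ (Finset.single_le_sum (f := fun i => vv z0 r i z ^ 2)
    (fun _ _ => sq_nonneg _) (Finset.mem_univ i))
  rw [vv, uu, mul_pow, inv_pow, qq_sq, ← div_eq_mul_inv, le_div_iff₀ (by positivity)]
  linarith

/-- The multiplier estimate. -/
theorem mult (hr : 0 < r) {Y : X3 → ℝ} (hY : Sm Y) {N g : ℝ} (h0 : L2 (fun z => psi z0 r z * Y z) N)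
    (h1 : ∀ i, L2 (fun z => psi z0 r z * pd i Y z) g) :
    ∫ z, (psi z0 r z * Y z) ^ 2 ≤
      4 * (∫ z in Metric.closedBall z0 r, Y z ^ 2) + 6 * r * (N * g) := by
  set ψ := psi z0 r with hψ
  have sψ : Sm ψ := psi_sm z0 r
  set Q := Metric.closedBall z0 r with hQ
  have mQ : MeasurableSet Q := Metric.isClosed_closedBall.measurableSet
  let t : Fin 3 → X3 → ℝ := fun i z =>
    uu z0 r i z - vv z0 r i z ^ 2 * uu z0 r i z - 8 * vv z0 r i z ^ 2
  have ct : ∀ i, Continuous (t i) := fun i =>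
    ((uu_sm z0 r i).continuous.sub (((vv_sm z0 r i).continuous.pow 2).mul
      (uu_sm z0 r i).continuous)).sub (continuous_const.mul ((vv_sm z0 r i).continuous.pow 2))
  have v2 : ∀ i z, vv z0 r i z ^ 2 ≤ 1 := fun i z =>
    (sq_le_one_iff_abs_le_one _).2 (abs_vv_le z0 r i z)
  have t1 : ∀ i z, t i z ≤ 1 - 8 * vv z0 r i z ^ 2 := fun i z => by
    have := mul_nonneg (sq_nonneg (vv z0 r i z)) (uu_pos z0 r i z).le
    have := uu_le z0 r i z
    simp only [t]
    linarith
  have t2 : ∀ i z, |t i z| ≤ 8 := fun i z => by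
    have := mul_le_mul_of_nonneg_right (v2 i z) (uu_pos z0 r i z).le
    have := t1 i z
    have := sq_nonneg (vv z0 r i z)
    have := v2 i z
    refine abs_le.2 ⟨?_, by linarith⟩
    simp only [t]
    linarith
  have lt := fun i => h0.bmul (ct i) (t2 i)
  have lv := fun i => h0.bmul (vv_sm z0 r i).continuous (abs_vv_le z0 r i)
  have key : ∀ i, ∫ z, t i z * (ψ z * Y z) * (ψ z * Y z) =
      -(2 * r) * ∫ z, vv z0 r i z * (ψ z * Y z) * (ψ z * pd i Y z) := by
    intro i
    have sf : Sm fun z => r * (vv z0 r i z * (ψ z * ψ z)) :=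
      contDiff_const.mul ((vv_sm z0 r i).mul (sψ.mul sψ))
    have e1 : ∀ z, pd i (fun z => r * (vv z0 r i z * (ψ z * ψ z))) z * (Y z * Y z) =
        t i z * (ψ z * Y z) * (ψ z * Y z) := fun z => by
      rw [pd_cmul i _ ((vv_sm z0 r i).mul (sψ.mul sψ)), pd_mul i (vv_sm z0 r i) (sψ.mul sψ),
        pd_mul i sψ sψ, pd_vv, hψ, pd_psi]
      simp only [kk, if_true, t]
      field_simp
      ring
    have e2 : ∀ z, r * (vv z0 r i z * (ψ z * ψ z)) * pd i (fun z => Y z * Y z) z =
        2 * r * (vv z0 r i z * (ψ z * Y z) * (ψ z * pd i Y z)) := fun z => by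
      rw [pd_mul i hY hY]
      ring
    have := ibp i sf (hY.mul hY)
      ((((lv i).mul_int h0).const_mul r).congr (Eventually.of_forall fun z => by ring))
      (by simp only [e1]; exact (lt i).mul_int h0)
      (by simp only [e2]; exact ((lv i).mul_int (h1 i)).const_mul _)
    simp only [e1, e2, integral_const_mul] at this
    linarith
  have bd : ∀ i, -(2 * r * (N * g)) ≤ ∫ z, t i z * (ψ z * Y z) * (ψ z * Y z) := fun i => by
    have h2 := (abs_le.1 ((lv i).cs (h1 i))).2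
    rw [key i]
    nlinarith
  have iQ : IntegrableOn (fun z => Y z ^ 2) Q :=
    (hY.continuous.pow 2).continuousOn.integrableOn_compact (isCompact_closedBall z0 r)
  have i1 : Integrable fun z => 4 * Q.indicator (fun z => Y z ^ 2) z :=
    ((integrable_indicator_iff mQ).2 iQ).const_mul 4
  have i2 : Integrable fun z => ∑ i, t i z * (ψ z * Y z) * (ψ z * Y z) :=
    integrable_finsetSum _ fun i _ => (lt i).mul_int h0
  have h3 : ∫ z, (ψ z * Y z) ^ 2 ≤ ∫ z, (4 * Q.indicator (fun z => Y z ^ 2) z -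
      ∑ i, t i z * (ψ z * Y z) * (ψ z * Y z)) := by
    refine integral_mono h0.int (i1.sub i2) fun z => ?_
    show (ψ z * Y z) ^ 2 ≤ 4 * Q.indicator (fun z => Y z ^ 2) z -
      ∑ i, t i z * (ψ z * Y z) * (ψ z * Y z)
    have a1 : ∑ i, t i z * (ψ z * Y z) * (ψ z * Y z) ≤
        (3 - 8 * ∑ i, vv z0 r i z ^ 2) * (ψ z * Y z) ^ 2 := by
      have := mul_le_mul_of_nonneg_right (add_le_add (add_le_add (t1 0 z) (t1 1 z)) (t1 2 z))
        (sq_nonneg (ψ z * Y z))
      simp only [Fin.sum_univ_three]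
      linarith
    by_cases c : z ∈ Q
    · rw [indicator_of_mem c]
      have a2 : (ψ z * Y z) ^ 2 ≤ Y z ^ 2 := by
        rw [mul_pow]
        exact mul_le_of_le_one_left (sq_nonneg _)
          (pow_le_one₀ (psi_pos z0 r z).le (psi_le z0 r z))
      have a3 : 0 ≤ (∑ i, vv z0 r i z ^ 2) * (ψ z * Y z) ^ 2 :=
        mul_nonneg (Finset.sum_nonneg fun _ _ => sq_nonneg _) (sq_nonneg _)
      linarith
    · rw [indicator_of_notMem c]
      have := mul_le_mul_of_nonneg_right (far z0 hr c) (sq_nonneg (ψ z * Y z))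
      linarith
  rw [integral_sub i1 i2, integral_const_mul, integral_indicator mQ,
    integral_finsetSum _ fun i _ => (lt i).mul_int h0, Fin.sum_univ_three] at h3
  linarith [bd 0, bd 1, bd 2]

/-- **The weighted Poincare inequality.** -/
theorem poin : POIN := by
  intro z0 ρ δ hρ hδ
  set κ := 136 * Real.exp 24 + 6 with hκ
  have κ0 : 0 < κ := by positivity
  set r := min ρ (min (1 / (2 * κ)) (δ / (4 * κ))) with hr
  have r0 : 0 < r := by positivity
  have r1 : r * κ ≤ 1 / 2 := by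
    have : r ≤ 1 / (2 * κ) := (min_le_right _ _).trans (min_le_left _ _)
    rw [le_div_iff₀ (by positivity)] at this
    linarith
  have r2 : 4 * (r * κ) ≤ δ := by
    have : r ≤ δ / (4 * κ) := (min_le_right _ _).trans (min_le_right _ _)
    rw [le_div_iff₀ (by positivity)] at this
    linarith
  obtain ⟨b, A, sb, b0, A0, hb⟩ := loc z0 r0
  refine ⟨psi z0 r, b, 4 * √A, wt_psi z0 r0, sb, fun z hz => b0 z fun h =>
    hz (Metric.closedBall_subset_closedBall (min_le_left _ _) h), by positivity,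
    fun Y c0 c1 hY h0 h1 => ?_⟩
  have hN := l2_opt h0.cont h0.int
  set N := √(∫ z, (psi z0 r z * Y z) ^ 2) with eN
  have N0 : 0 ≤ N := Real.sqrt_nonneg _
  have N2 : N ^ 2 = ∫ z, (psi z0 r z * Y z) ^ 2 :=
    Real.sq_sqrt (integral_nonneg fun _ => sq_nonneg _)
  have c10 : 0 ≤ c1 := (h1 0).nonneg
  have hg : ∀ i, L2 (fun z => psi z0 r z * pd i Y z) (2 * c1 + 1 * N) := by
    intro i
    have cg : Continuous fun z => (gz i z)⁻¹ :=
      (gz_sm i).continuous.inv₀ fun z => (gz_pos i z).ne'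
    have a1 := (h1 i).bmul cg (s := 2) fun z => by
      rw [abs_of_pos (inv_pos.2 (gz_pos i z)), inv_le_comm₀ (gz_pos i z) two_pos]
      linarith [gz_ge i z]
    have a2 := hN.bmul ((co_sm i).continuous.mul cg) (s := 1) fun z => by
      show |co i z * (gz i z)⁻¹| ≤ 1
      rw [abs_mul, abs_of_pos (inv_pos.2 (gz_pos i z)), ← div_eq_mul_inv, div_le_one (gz_pos i z),
        gz]
      nlinarith [sq_nonneg (|co i z| - 1), sq_abs (co i z)]
    refine (a1.sub a2).congr fun z => ?_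
    have := (gz_pos i z).ne'
    rw [Dh_eq i hY]
    simp only [D, Pi.mul_apply]
    field_simp
    ring
  set g := 2 * c1 + 1 * N with eg
  have g0 : 0 ≤ g := by positivity
  have m1 := mult z0 r0 hY hN hg
  have m2 := hb Y hY
  set m := ∫ z, b z * Y z with em
  have m3 : ∫ z in Metric.closedBall z0 r, gr Y z ≤ Real.exp 24 ^ 2 * (3 * g ^ 2) := by
    have i1 : Integrable fun z => Real.exp 24 ^ 2 * ∑ i, (psi z0 r z * pd i Y z) ^ 2 :=
      (integrable_finsetSum _ fun i _ => (hg i).int).const_mul _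
    calc _ ≤ ∫ z in Metric.closedBall z0 r,
          Real.exp 24 ^ 2 * ∑ i, (psi z0 r z * pd i Y z) ^ 2 := by
          refine setIntegral_mono_on ((gr_cont hY).continuousOn.integrableOn_compact
            (isCompact_closedBall z0 r)) i1.integrableOn Metric.isClosed_closedBall.measurableSet
            fun z hz => ?_
          have a1 : 1 ≤ Real.exp 24 * psi z0 r z := by
            have := mul_le_mul_of_nonneg_left (psi_ge z0 r0 hz) (Real.exp_pos 24).le
            rwa [← Real.exp_add, add_neg_cancel, Real.exp_zero] at this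
          have a2 := mul_le_mul_of_nonneg_right (one_le_pow₀ (n := 2) a1) (gr_nonneg Y z)
          simp only [gr, Fin.sum_univ_three] at a2 ⊢
          linarith
      _ ≤ ∫ z, Real.exp 24 ^ 2 * ∑ i, (psi z0 r z * pd i Y z) ^ 2 :=
          setIntegral_le_integral i1 (Eventually.of_forall fun z => by positivity)
      _ ≤ _ := by
          rw [integral_const_mul, integral_finsetSum _ fun i _ => (hg i).int, Fin.sum_univ_three]
          exact mul_le_mul_of_nonneg_left (by linarith [(hg 0).sq, (hg 1).sq, (hg 2).sq])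
            (by positivity)
  have A2 : √A ^ 2 = A := Real.sq_sqrt A0
  have s0 : 0 ≤ √A * |m| := by positivity
  set E := Real.exp 24 with eE
  have E0 : 0 < E := Real.exp_pos _
  set x := r * E * g with ex
  have x0 : 0 ≤ x := by positivity
  have y0 : 0 ≤ r * g := by positivity
  have m4 : N ^ 2 ≤ (136 * x + 2 * (√A * |m|)) ^ 2 + 6 * (r * g) * N := by
    have a1 : (√A * |m|) ^ 2 = A * m ^ 2 := by rw [mul_pow, A2, sq_abs]
    have a2 := mul_le_mul_of_nonneg_left m3 (show 0 ≤ 1536 * r ^ 2 by positivity)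
    have a3 : 1536 * r ^ 2 * (E ^ 2 * (3 * g ^ 2)) = 4608 * x ^ 2 := by rw [ex]; ring
    nlinarith [mul_nonneg x0 s0, sq_nonneg x]
  have m5 : N ≤ 136 * x + 2 * (√A * |m|) + 6 * (r * g) := by
    by_contra c
    push Not at c
    nlinarith
  have m6 : 136 * x + 6 * (r * g) = r * κ * (2 * c1 + N) := by
    rw [ex, hκ, eg]
    ring
  refine hN.le ?_
  have a1 := mul_le_mul_of_nonneg_right r1 N0
  have a2 := mul_le_mul_of_nonneg_right r2 c10
  nlinarith

end Vale.Agent.P354KP
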