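import Vale.Agent.P354K.Calc
import Vale.Agent.P354H.L2

/-!
The Poincare inequality on a cube.
-/

open scoped ContDiff ENNReal
open MeasureTheory Set Filter Topology

namespace Vale.Agent.P354KP

open Vale.Agent.P354H (X3 e pd pdl Sb pd_sm dif haar)
open Vale.Agent.P354K

theorem jensen {α : Type} [MeasurableSpace α] (μ : Measure α) {b g : α → ℝ} (hb : ∀ x, 0 ≤ b x)
    (h1 : ∫ x, b x ∂μ = 1) (i0 : Integrable b μ) (i1 : Integrable (fun x => b x * g x) μ)
    (i2 : Integrable (fun x => b x * g x ^ 2) μ) :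
    (∫ x, b x * g x ∂μ) ^ 2 ≤ ∫ x, b x * g x ^ 2 ∂μ := by
  set a := ∫ x, b x * g x ∂μ with ha
  have h2 : 0 ≤ ∫ x, (b x * g x ^ 2 - 2 * a * (b x * g x) + a ^ 2 * b x) ∂μ :=
    integral_nonneg fun x => by
      have := mul_nonneg (hb x) (sq_nonneg (g x - a))
      show 0 ≤ b x * g x ^ 2 - 2 * a * (b x * g x) + a ^ 2 * b x
      nlinarith
  have i3 : Integrable (fun x => b x * g x ^ 2 - 2 * a * (b x * g x)) μ := i2.sub (i1.const_mul _)
  rw [integral_add i3 (i0.const_mul _), integral_sub i2 (i1.const_mul _),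
    integral_const_mul, integral_const_mul, h1, ← ha] at h2
  nlinarith

/-- The square of the gradient. -/
noncomputable def gr (Y : X3 → ℝ) (z : X3) : ℝ := ∑ i, pd i Y z ^ 2

theorem gr_nonneg (Y : X3 → ℝ) (z : X3) : 0 ≤ gr Y z := Finset.sum_nonneg fun _ _ => sq_nonneg _

theorem gr_cont {Y : X3 → ℝ} (hY : Sm Y) : Continuous (gr Y) :=
  continuous_finsetSum _ fun i _ => (pd_sm i hY).continuous.pow 2

theorem eq_sum (h : X3) : h = ∑ i, co i h • e i := by
  obtain ⟨a, b, c⟩ := h
  simp [Fin.sum_univ_three, co, e]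

theorem fderiv_sq (Y : X3 → ℝ) (z h : X3) : fderiv ℝ Y z h ^ 2 ≤ 3 * ‖h‖ ^ 2 * gr Y z := by
  have e1 : fderiv ℝ Y z h = ∑ i, co i h * pd i Y z := by
    conv_lhs => rw [eq_sum h]
    simp only [map_sum, map_smul, smul_eq_mul, pd]
  have k : ∀ i, co i h ^ 2 ≤ ‖h‖ ^ 2 := fun i => by
    rw [← sq_abs]
    exact pow_le_pow_left₀ (abs_nonneg _) (abs_co_le i h) 2
  have c := Finset.sum_mul_sq_le_sq_mul_sq Finset.univ (fun i => co i h) fun i => pd i Y z
  rw [e1]
  refine c.trans (mul_le_mul_of_nonneg_right ?_ (gr_nonneg Y z))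
  rw [Fin.sum_univ_three]
  linarith [k 0, k 1, k 2]

theorem seg {Y : X3 → ℝ} (hY : Sm Y) (x h : X3) :
    (Y x - Y (x - h)) ^ 2 ≤ ∫ t in Ioc (0 : ℝ) 1, fderiv ℝ Y (x - t • h) h ^ 2 := by
  have hc : Continuous fun t : ℝ => fderiv ℝ Y (x - t • h) h :=
    ((hY.continuous_fderiv (by simp)).comp (by fun_prop)).clm_apply continuous_const
  have hd : ∀ t : ℝ, HasDerivAt (fun t : ℝ => -Y (x - t • h)) (fderiv ℝ Y (x - t • h) h) t := by
    intro t
    have h1 : HasDerivAt (fun t : ℝ => x - t • h) (-h) t := by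
      simpa using ((hasDerivAt_id t).smul_const h).const_sub x
    have h2 := ((dif hY (x - t • h)).hasFDerivAt.comp_hasDerivAt t h1).neg
    rw [map_neg, neg_neg] at h2
    exact h2
  have h1 := intervalIntegral.integral_eq_sub_of_hasDerivAt (a := 0) (b := 1) (fun t _ => hd t)
    (hc.intervalIntegrable 0 1)
  rw [intervalIntegral.integral_of_le zero_le_one] at h1
  have h2 := jensen (volume.restrict (Ioc (0 : ℝ) 1)) (b := fun _ => 1)
    (g := fun t => fderiv ℝ Y (x - t • h) h) (fun _ => zero_le_one) (by simp) (by simp)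
    (continuous_const.mul hc).integrableOn_Ioc
    (continuous_const.mul (hc.pow 2)).integrableOn_Ioc
  simp only [one_mul] at h2
  rw [h1] at h2
  refine le_trans (le_of_eq ?_) h2
  simp only [one_smul, zero_smul, sub_zero]
  ring

/-- The double integral of the oscillation over a cube. -/
theorem osc {Y : X3 → ℝ} (hY : Sm Y) (z0 : X3) {r : ℝ} (hr : 0 < r) :
    ∫⁻ x in Metric.closedBall z0 r, ∫⁻ y in Metric.closedBall z0 r,
      ENNReal.ofReal ((Y x - Y y) ^ 2) ≤ ENNReal.ofReal (96 * r ^ 2) *
        volume (Metric.closedBall z0 r) * ∫⁻ z in Metric.closedBall z0 r, ENNReal.ofReal (gr Y z) := by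
  have := haar
  set Q := Metric.closedBall z0 r with hQ
  have mQ : MeasurableSet Q := Metric.isClosed_closedBall.measurableSet
  set g : X3 → ℝ≥0∞ := Q.indicator fun z => ENNReal.ofReal (gr Y z) with hg
  have mg : Measurable g := (gr_cont hY).measurable.ennreal_ofReal.indicator mQ
  set ν : Measure (X3 × ℝ) := (volume.restrict (Metric.closedBall (0 : X3) (2 * r))).prod
    (volume.restrict (Ioc (0 : ℝ) 1)) with hν
  have m2 : Measurable fun p : X3 × X3 × ℝ => g (p.1 - p.2.2 • p.2.1) := mg.comp (by fun_prop)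
  have key : ∀ x ∈ Q, ∫⁻ y in Q, ENNReal.ofReal ((Y x - Y y) ^ 2) ≤
      ENNReal.ofReal (12 * r ^ 2) * ∫⁻ p, g (x - p.2 • p.1) ∂ν := by
    intro x hx
    have m3 : Measurable fun p : X3 × ℝ => g (x - p.2 • p.1) := mg.comp (by fun_prop)
    rw [hν, lintegral_prod _ m3.aemeasurable, ← lintegral_indicator mQ,
      ← lintegral_sub_left_eq_self _ x,
      ← lintegral_indicator Metric.isClosed_closedBall.measurableSet,
      ← lintegral_const_mul' _ _ ENNReal.ofReal_ne_top]
    refine lintegral_mono fun h => ?_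
    by_cases c : x - h ∈ Q
    · have n1 : ‖h‖ ≤ 2 * r := by
        have a1 : dist x z0 ≤ r := hx
        have a2 : dist (x - h) z0 ≤ r := c
        have a3 := dist_triangle_right x (x - h) z0
        rw [dist_eq_norm, sub_sub_cancel] at a3
        linarith
      rw [indicator_of_mem c, indicator_of_mem (mem_closedBall_zero_iff.2 n1)]
      have hc : Continuous fun t : ℝ => fderiv ℝ Y (x - t • h) h :=
        ((hY.continuous_fderiv (by simp)).comp (by fun_prop)).clm_apply continuous_const
      refine (ENNReal.ofReal_le_ofReal (seg hY x h)).trans ?_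
      have hc2 : Continuous fun t : ℝ => fderiv ℝ Y (x - t • h) h ^ 2 := hc.pow 2
      rw [ofReal_integral_eq_lintegral_ofReal hc2.integrableOn_Ioc
        (Eventually.of_forall fun t => sq_nonneg _),
        ← lintegral_const_mul' _ _ ENNReal.ofReal_ne_top]
      refine setLIntegral_mono' measurableSet_Ioc fun t ht => ?_
      have c2 : x - t • h ∈ Q := by
        have := (convex_closedBall z0 r) hx c (sub_nonneg.2 ht.2) ht.1.le (by ring)
        rwa [smul_sub, sub_smul, one_smul, sub_add_sub_cancel] at this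
      rw [hg, indicator_of_mem c2, ← ENNReal.ofReal_mul (by positivity)]
      refine ENNReal.ofReal_le_ofReal ((fderiv_sq Y _ h).trans ?_)
      refine mul_le_mul_of_nonneg_right ?_ (gr_nonneg Y _)
      nlinarith [norm_nonneg h]
    · rw [indicator_of_notMem c]
      exact zero_le
  have e1 : ∫⁻ x, ∫⁻ p, g (x - p.2 • p.1) ∂ν = ν univ * ∫⁻ z, g z := by
    rw [lintegral_lintegral_swap m2.aemeasurable]
    simp only [lintegral_sub_right_eq_self g, lintegral_const]
    rw [mul_comm]
  have e2 : ν univ = 8 * volume Q := by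
    rw [hν, ← univ_prod_univ, Measure.prod_prod, Measure.restrict_apply_univ,
      Measure.restrict_apply_univ, Real.volume_Ioc, Measure.addHaar_closedBall_mul _ _ two_pos.le hr.le,
      hQ, Measure.addHaar_closedBall_center volume z0]
    simp
    norm_num
  calc _ ≤ ∫⁻ x in Q, ENNReal.ofReal (12 * r ^ 2) * ∫⁻ p, g (x - p.2 • p.1) ∂ν :=
        setLIntegral_mono' mQ key
    _ ≤ ∫⁻ x, ENNReal.ofReal (12 * r ^ 2) * ∫⁻ p, g (x - p.2 • p.1) ∂ν :=
        setLIntegral_le_lintegral _ _
    _ = _ := by
        rw [lintegral_const_mul' _ _ ENNReal.ofReal_ne_top, e1, e2, hg, lintegral_indicator mQ,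
          show (96 * r ^ 2) = 12 * r ^ 2 * 8 by ring,
          ENNReal.ofReal_mul (p := 12 * r ^ 2) (by positivity), ENNReal.ofReal_ofNat]
        ring

/-- The Poincare inequality on a cube, with a smooth mean. -/
theorem loc (z0 : X3) {r : ℝ} (hr : 0 < r) : ∃ (b : X3 → ℝ) (A : ℝ), Sm b ∧
    (∀ z, z ∉ Metric.closedBall z0 r → b z = 0) ∧ 0 ≤ A ∧ ∀ Y, Sm Y →
      ∫ z in Metric.closedBall z0 r, Y z ^ 2 ≤
        1536 * r ^ 2 * (∫ z in Metric.closedBall z0 r, gr Y z) + A * (∫ z, b z * Y z) ^ 2 := by
  have := haar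
  let φ : ContDiffBump z0 := ⟨r / 2, r, by positivity, by linarith⟩
  set Q := Metric.closedBall z0 r with hQ
  have cQ : IsCompact Q := isCompact_closedBall z0 r
  have mQ : MeasurableSet Q := Metric.isClosed_closedBall.measurableSet
  set v := volume.real Q with hv
  have v0 : 0 < v := ENNReal.toReal_pos (Metric.measure_closedBall_pos volume z0 hr).ne'
    cQ.measure_lt_top.ne
  have b0 : ∀ z, z ∉ Q → φ.normed volume z = 0 := fun z hz => by
    by_contra c
    exact hz (Metric.ball_subset_closedBall (φ.support_normed_eq (μ := volume) ▸ c))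
  have b1 : ∀ z, φ.normed volume z ≤ 8 / v := fun z => by
    have := φ.normed_le_div_measure_closedBall_rOut volume 2 (by simp [φ]; linarith) z
    simp only [Module.finrank_prod, Module.finrank_self] at this
    norm_num at this
    exact this
  refine ⟨φ.normed volume, 2 * v, φ.contDiff_normed, b0, by positivity, fun Y hY => ?_⟩
  set m := ∫ z, φ.normed volume z * Y z with hm
  have ib : ∀ {g : X3 → ℝ}, Continuous g → Integrable fun z => φ.normed volume z * g z :=
    fun hg => (φ.continuous_normed.mul hg).integrable_of_hasCompactSupport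
      φ.hasCompactSupport_normed.mul_right
  have c1 : ∀ x, Continuous fun y => (Y x - Y y) ^ 2 := fun x =>
    (continuous_const.sub hY.continuous).pow 2
  have k1 : ∀ x, (Y x - m) ^ 2 ≤ 8 / v * ∫ y in Q, (Y x - Y y) ^ 2 := by
    intro x
    have h1 := jensen volume (b := φ.normed volume) (g := fun y => Y x - Y y) φ.nonneg_normed
      φ.integral_normed φ.integrable_normed (ib (continuous_const.sub hY.continuous)) (ib (c1 x))
    have h2 : ∫ y, φ.normed volume y * (Y x - Y y) = Y x - m := by
      simp only [mul_sub]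
      rw [integral_sub (ib continuous_const) (ib hY.continuous), integral_mul_const,
        φ.integral_normed, one_mul]
    rw [h2] at h1
    refine h1.trans ?_
    rw [← integral_const_mul, ← setIntegral_eq_integral_of_forall_compl_eq_zero (s := Q)
      fun y hy => by rw [b0 y hy, zero_mul]]
    exact setIntegral_mono (ib (c1 x)).integrableOn
      ((continuous_const.mul (c1 x)).continuousOn.integrableOn_compact cQ)
      fun y => mul_le_mul_of_nonneg_right (b1 y) (sq_nonneg _)
  have c2 : Continuous fun x => (Y x - m) ^ 2 := (hY.continuous.sub continuous_const).pow 2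
  have i2 : IntegrableOn (fun x => (Y x - m) ^ 2) Q := c2.continuousOn.integrableOn_compact cQ
  have ig : IntegrableOn (gr Y) Q := (gr_cont hY).continuousOn.integrableOn_compact cQ
  have g0 : 0 ≤ ∫ z in Q, gr Y z := integral_nonneg (gr_nonneg Y)
  have k2 : ∫ x in Q, (Y x - m) ^ 2 ≤ 768 * r ^ 2 * ∫ z in Q, gr Y z := by
    refine (ENNReal.ofReal_le_ofReal_iff (by positivity)).1 ?_
    rw [ofReal_integral_eq_lintegral_ofReal i2 (Eventually.of_forall fun t => sq_nonneg _)]
    calc _ ≤ ∫⁻ x in Q, ENNReal.ofReal (8 / v) * ∫⁻ y in Q, ENNReal.ofReal ((Y x - Y y) ^ 2) := by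
          refine lintegral_mono fun x => (ENNReal.ofReal_le_ofReal (k1 x)).trans (le_of_eq ?_)
          rw [ENNReal.ofReal_mul (by positivity), ofReal_integral_eq_lintegral_ofReal
            ((c1 x).continuousOn.integrableOn_compact cQ) (Eventually.of_forall fun t => sq_nonneg _)]
      _ ≤ ENNReal.ofReal (8 / v) * (ENNReal.ofReal (96 * r ^ 2) * volume Q *
            ∫⁻ z in Q, ENNReal.ofReal (gr Y z)) := by
          rw [lintegral_const_mul' _ _ ENNReal.ofReal_ne_top]
          exact mul_le_mul_right (osc hY z0 hr) _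
      _ = _ := by
          rw [← ofReal_integral_eq_lintegral_ofReal ig (Eventually.of_forall (gr_nonneg Y)),
            ← ENNReal.ofReal_toReal cQ.measure_lt_top.ne, ← measureReal_def, ← hv,
            ← ENNReal.ofReal_mul (by positivity), ← ENNReal.ofReal_mul (by positivity),
            ← ENNReal.ofReal_mul (by positivity)]
          congr 1
          field_simp
          ring
  have k3 : ∫ z in Q, Y z ^ 2 ≤ ∫ z in Q, (2 * (Y z - m) ^ 2 + 2 * m ^ 2) :=
    setIntegral_mono ((hY.continuous.pow 2).continuousOn.integrableOn_compact cQ)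
      (((continuous_const.mul c2).add continuous_const).continuousOn.integrableOn_compact cQ)
      fun z => by
        show Y z ^ 2 ≤ 2 * (Y z - m) ^ 2 + 2 * m ^ 2
        nlinarith [sq_nonneg (Y z - 2 * m)]
  rw [integral_add (i2.const_mul 2) (continuous_const.continuousOn.integrableOn_compact cQ),
    integral_const_mul, setIntegral_const, smul_eq_mul, ← hv] at k3
  linarith

end Vale.Agent.P354KP
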